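import Claimed.Agent.R314.Prod.Geo
import Claimed.Agent.R314.Iso

/-!
# Row 314, package PROD: isometries of the product `X × ℝ`

`prdMap s γ z = (z 0 + s, γ (rm_tl N z))`: `prd_locIso`, `prd_isIso` (via `isIso_of_locIso`, `R314/Iso.lean`), `prd_cocpt`.
Owner: helper50.
-/

set_option autoImplicit false
set_option linter.unusedSectionVars false
open scoped ContDiff Topology
open Claims.C0499 Set Filter Claimed.Agent.R315

namespace Claimed.Agent.R314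

/-! ### isometries of the product -/

variable {d N : ℕ} {X : Set (E N)} {g : Ten (E N)} {γ : E N → E N}

/-- `γ × (translation by s)`. -/
noncomputable def prdMap {N : ℕ} (s : ℝ) (γ : E N → E N) : E (N + 1) → E (N + 1) :=
  fun z => rm_J (z 0 + s) (γ (rm_tl N z))

theorem prd_isom_cite : True := by
  have := @prdMap.eq_1
  trivial

theorem prd_map_psi (s s' : ℝ) (γ : E N → E N) (ψ : E d → E N) :
    prdMap s γ ∘ prdPsi s' ψ = prdPsi (s' + s) (γ ∘ ψ) := by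
  funext b
  show rm_J (prdPsi s' ψ b 0 + s) (γ (rm_tl N (prdPsi s' ψ b))) = rm_J (b 0 + (s' + s)) (γ (ψ (rm_tl d b)))
  rw [prd_psi_zero, prd_tl_psi, add_assoc]

theorem prd_locIso (hM : IsMfd d X) (hγ : IsLocI d X g γ) (s : ℝ) :
    LocIso (d + 1) (prdX X) (prdG g) (prdX X) (prdG g) (prdMap s γ) := by
  intro z hz
  obtain ⟨ψ, U, u, hp, -, -, hb, he⟩ := prd_cover hM 0 hz
  refine ⟨prdPsi 0 ψ, prdDom U, prd_param hp 0, ⟨_, hb, he⟩, ?_, fun b hb => ?_⟩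
  · rw [prd_map_psi]
    exact prd_param (hγ.param ψ U hp) _
  · rw [prd_map_psi]
    ext i j
    rw [← if_bil_eb (cm (prdG g) (prdPsi (0 + s) (γ ∘ ψ)) b) i j,
      ← if_bil_eb (cm (prdG g) (prdPsi 0 ψ) b) i j, prd_bil g (hγ.param ψ U hp) _ hb,
      prd_bil g hp 0 hb, hγ.cm_eq ψ U hp _ hb]

theorem prd_isIso (hM : IsMfd d X) (hγ : IsIso d X g γ) (s : ℝ) :
    IsIso (d + 1) (prdX X) (prdG g) (prdMap s γ) := by
  obtain ⟨h1, γ', h2, h3, h4⟩ := hγ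
  refine isIso_of_locIso (prd_locIso hM h1 s) (prd_locIso hM h2 (-s))
    (fun z hz => ?_) fun z hz => ?_
  · show rm_J (rm_J (z 0 + s) (γ (rm_tl N z)) 0 + -s) (γ' (rm_tl N (rm_J (z 0 + s) (γ (rm_tl N z))))) = z
    rw [rm_J_zero, rm_tl_J, h3 _ hz, add_neg_cancel_right, rm_J_tl]
  · show rm_J (rm_J (z 0 + -s) (γ' (rm_tl N z)) 0 + s) (γ (rm_tl N (rm_J (z 0 + -s) (γ' (rm_tl N z))))) = z
    rw [rm_J_zero, rm_tl_J, h4 _ hz, neg_add_cancel_right, rm_J_tl]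

theorem prd_cocpt (hM : IsMfd d X)
    (h : ∃ K : Set (E N), IsCompact K ∧ K ⊆ X ∧ ∀ x ∈ X, ∃ γ : E N → E N, IsIso d X g γ ∧ γ x ∈ K) :
    ∃ K : Set (E (N + 1)), IsCompact K ∧ K ⊆ prdX X ∧ ∀ z ∈ prdX X,
      ∃ γ : E (N + 1) → E (N + 1), IsIso (d + 1) (prdX X) (prdG g) γ ∧ γ z ∈ K := by
  obtain ⟨K, hK, hKX, hcov⟩ := h
  refine ⟨rm_J 0 '' K, hK.image (rm_J_contDiff 0).continuous, ?_, fun z hz => ?_⟩
  · rintro _ ⟨x, hx, rfl⟩
    exact prd_J_mem (hKX hx) 0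
  · obtain ⟨γ, hγ, hγK⟩ := hcov _ hz
    refine ⟨prdMap (-(z 0)) γ, prd_isIso hM hγ _, γ (rm_tl N z), hγK, ?_⟩
    show rm_J 0 (γ (rm_tl N z)) = rm_J (z 0 + -(z 0)) (γ (rm_tl N z))
    rw [add_neg_cancel]

end Claimed.Agent.R314
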