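import Claimed.Agent.R314.Prod.Space
import Claimed.Agent.R314.Prod.Isom

/-!
# Row 314, package PROD (helper50): product with a line (needed for `n = 2`, where `t3_main` is applied to `X × ℝ`)

`X' = prdX X = rm_tl N ⁻¹' X ⊆ E (N+1)`, `g' = prdG g = g ∘ rm_tl ⊕ dq²`, `w' = w ∘ rm_tl N`.
* `Prod/Blk.lean` : block metrics in a chart (scalar curvature, Laplacian, inner products);
* `Prod/Geo.lean` : product parametrisations, `prd_mfd`, `prd_met`, `prd_smooth`, `prd_Dsc`;
* `Prod/Space.lean` : `prd_closed`, `prd_conn`, `prd_fill`, `prd_proper`;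
* `Prod/Isom.lean` : `prd_isIso`, `prd_cocpt`.
-/

set_option autoImplicit false
open scoped ContDiff Topology
open Set Claims.C0499 Claimed.Agent.R315

namespace Claimed.Agent.R314

/-- the product of a `UCont` manifold with a line is `UCont`. -/
theorem prd_ucont {n N : ℕ} {X : Set (E N)} {g : Ten (E N)} (h : UCont n X g) :
    UCont (n + 1) (prdX X) (prdG g) where
  mfd := prd_mfd h.mfd
  closed := prd_closed h.closed
  conn := prd_conn h.conn
  met := prd_met h.mfd h.met
  proper := prd_proper h.mfd h.met h.closed h.conn h.proper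
  fill := fun k => prd_fill (h.fill k)
  cocpt := prd_cocpt h.mfd h.cocpt

theorem prod_main {n N : ℕ} {X : Set (E N)} {g : Ten (E N)} (h : UCont n X g) {w : E N → ℝ}
    (hw : SmoothAlong n X w) {c : ℝ} (hb : ∀ x ∈ X, c ≤ Dsc n X g w x) :
    ∃ (N' : ℕ) (X' : Set (E N')) (g' : Ten (E N')) (w' : E N' → ℝ), UCont (n + 1) X' g' ∧
      SmoothAlong (n + 1) X' w' ∧ ∀ x ∈ X', c ≤ Dsc (n + 1) X' g' w' x := by
  refine ⟨N + 1, prdX X, prdG g, w ∘ rm_tl N, prd_ucont h, prd_smooth h.mfd hw, fun z hz => ?_⟩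
  rw [prd_Dsc h.mfd h.met hw hz]
  exact hb _ hz

end Claimed.Agent.R314
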