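import Claimed.Agent.R314.Defs
import Claimed.Agent.R315.Pack005
import Claimed.Agent.R315.Pk.Mfd

/-!
# Row 314, package PROD: block metrics `1 ⊕ g ∘ rm_tl` in a chart

COPY (fresh names, prefix `prd_`) of the sections `block` of `R315/Ct/ProdB.lean` (too heavy to be imported; author helper29):
`PrdBlk G g U` : `G = 1 ⊕ g ∘ rm_tl` on `prdDom U = {b | rm_tl d b ∈ U}`; `PrdLift F f a U` : `F = f ∘ rm_tl + a q`.
Results: `PrdBlk.rmMet`, `PrdBlk.scalar`, `PrdBlk.ip`, `PrdBlk.lap`.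
Owner: helper50.
-/

set_option autoImplicit false
set_option linter.unusedSectionVars false
open scoped ContDiff Topology
open Claims.C0499 Set Filter Claimed.Agent.R315

namespace Claimed.Agent.R314

variable {d : ℕ}

/-- the domain of a product parametrisation. -/
def prdDom {d : ℕ} (U : Set (E d)) : Set (E (d + 1)) := {b | rm_tl d b ∈ U}

theorem prd_dom_open {U : Set (E d)} (hU : IsOpen U) : IsOpen (prdDom U) :=
  hU.preimage (rm_tl d).continuous

theorem prd_J_mem_dom {U : Set (E d)} {u : E d} (hu : u ∈ U) (q : ℝ) : rm_J q u ∈ prdDom U := by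
  show rm_tl d (rm_J q u) ∈ U
  rw [rm_tl_J]
  exact hu

theorem prd_tl_eb_succ (a : Fin d) : rm_tl d (eb a.succ) = eb a := by
  rw [← rm_in_eb]
  ext c
  rw [rm_tl_apply, rm_in_succ]

/-! ### block metrics `1 ⊕ g ∘ rm_tl` in a chart -/

section block

/-- `G = 1 ⊕ g ∘ rm_tl` on `prdDom U`. -/
structure PrdBlk {d : ℕ} (G : rm_MF (d + 1)) (g : rm_MF d) (U : Set (E d)) : Prop where
  met : rm_Met g U
  bil : ∀ b ∈ prdDom U, ∀ X Y : E (d + 1),
    if_bil (G b) X Y = if_bil (g (rm_tl d b)) (rm_tl d X) (rm_tl d Y) + X 0 * Y 0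

/-- `F = f ∘ rm_tl + a q` on `prdDom U`. -/
structure PrdLift {d : ℕ} (F : E (d + 1) → ℝ) (f : E d → ℝ) (a : ℝ) (U : Set (E d)) : Prop where
  smooth : ContDiffOn ℝ ∞ f U
  eq : ∀ b ∈ prdDom U, F b = f (rm_tl d b) + a * b 0

variable {G : rm_MF (d + 1)} {g : rm_MF d} {U : Set (E d)} {b : E (d + 1)}
  {F K : E (d + 1) → ℝ} {f k : E d → ℝ} {a c : ℝ}

theorem PrdBlk.e00 (H : PrdBlk G g U) (hb : b ∈ prdDom U) : G b 0 0 = 1 := by
  rw [← if_bil_eb (G b), H.bil b hb, rm_tl_eb0]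
  simp

theorem PrdBlk.e0s (H : PrdBlk G g U) (hb : b ∈ prdDom U) (i : Fin d) : G b 0 i.succ = 0 := by
  rw [← if_bil_eb (G b), H.bil b hb, rm_tl_eb0]
  simp [Fin.succ_ne_zero, eq_comm]

theorem PrdBlk.es0 (H : PrdBlk G g U) (hb : b ∈ prdDom U) (i : Fin d) : G b i.succ 0 = 0 := by
  rw [← if_bil_eb (G b), H.bil b hb, rm_tl_eb0]
  simp [Fin.succ_ne_zero, eq_comm]

theorem PrdBlk.ess (H : PrdBlk G g U) (hb : b ∈ prdDom U) (i j : Fin d) :
    G b i.succ j.succ = g (rm_tl d b) i j := by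
  rw [← if_bil_eb (G b), H.bil b hb, prd_tl_eb_succ, prd_tl_eb_succ, if_bil_eb]
  simp [Fin.succ_ne_zero, eq_comm]

theorem PrdBlk.rmMet (H : PrdBlk G g U) : rm_Met G (prdDom U) := by
  refine ⟨prd_dom_open H.met.opn, fun i j => ?_, fun b hb => ?_⟩
  · refine Fin.cases ?_ (fun i => ?_) i <;> refine Fin.cases ?_ (fun j => ?_) j
    · exact contDiffOn_const.congr fun b hb => H.e00 hb
    · exact contDiffOn_const.congr fun b hb => H.e0s hb j
    · exact contDiffOn_const.congr fun b hb => H.es0 hb i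
    · exact ((H.met.smooth i j).comp (rm_tl d).contDiff.contDiffOn fun _ hb => hb).congr
        fun b hb => H.ess hb i j
  · have hpd := H.met.pos _ hb
    refine pk_posDef_of_bil (fun i j => ?_) fun X hX => ?_
    · rw [← if_bil_eb (G b) i j, ← if_bil_eb (G b) j i, H.bil b hb, H.bil b hb,
        if_bil_symm (if_isSymm_of_posSemidef hpd.posSemidef), mul_comm]
    · rw [H.bil b hb]
      by_cases h0 : rm_tl d X = 0
      · have hX0 : X 0 ≠ 0 := by
          intro h1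
          apply hX
          rw [← rm_J_tl X, h0, h1]
          simp [rm_J]
        rw [h0]
        simp only [map_zero, zero_add]
        exact mul_self_pos.2 hX0
      · have := pk_mfd_bil_pos hpd h0
        have := mul_self_nonneg (X 0)
        linarith

theorem PrdBlk.orth (H : PrdBlk G g U) : rm_Orth G (prdDom U) := fun _ hb i => H.e0s hb i

theorem PrdBlk.lps (H : PrdBlk G g U) (hb : b ∈ prdDom U) : rm_lps G b = 1 := by
  unfold rm_lps
  rw [H.e00 hb, Real.sqrt_one]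

theorem PrdBlk.tan (H : PrdBlk G g U) (hb : b ∈ prdDom U) : rm_tan G b = g (rm_tl d b) := by
  ext i j
  exact H.ess hb i j

theorem PrdBlk.sl (H : PrdBlk G g U) (q : ℝ) {y : E d} (hy : y ∈ U) : rm_sl G q y = g y := by
  unfold rm_sl
  rw [H.tan (prd_J_mem_dom hy q), rm_tl_J]

theorem PrdBlk.sl_ev (H : PrdBlk G g U) (q : ℝ) {y : E d} (hy : y ∈ U) : rm_sl G q =ᶠ[𝓝 y] g :=
  Filter.eventuallyEq_of_mem (H.met.opn.mem_nhds hy) fun _ hw => H.sl q hw

theorem prd_pdiff_tl_zero {φ : E d → ℝ} (hφ : DifferentiableAt ℝ φ (rm_tl d b)) :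
    pdiff (fun w => φ (rm_tl d w)) 0 b = 0 := by
  unfold pdiff
  have := (hφ.hasFDerivAt.comp b (rm_tl d).hasFDerivAt).fderiv
  have h2 : (fun w => φ (rm_tl d w)) = φ ∘ rm_tl d := rfl
  rw [h2, this, ContinuousLinearMap.comp_apply, rm_tl_eb0, map_zero]

theorem prd_pdiff_add_const (φ : E d → ℝ) (r : ℝ) (i : Fin d) (y : E d) :
    pdiff (fun w => φ w + r) i y = pdiff φ i y := by
  unfold pdiff
  rw [fderiv_add_const]

theorem prd_pdiff_coord (r : ℝ) : pdiff (fun w : E (d + 1) => r * w 0) 0 b = r := by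
  have h1 : HasFDerivAt (fun w : E (d + 1) => r * w 0) (r • if_pr (0 : Fin (d + 1))) b :=
    (if_pr (0 : Fin (d + 1))).hasFDerivAt.const_mul r
  unfold pdiff
  rw [h1.fderiv]
  simp

theorem PrdBlk.sff (H : PrdBlk G g U) (hb : b ∈ prdDom U) : rm_sff G b = 0 := by
  ext i j
  show (2 * rm_lps G b)⁻¹ * pdiff (fun w => G w i.succ j.succ) 0 b = 0
  rw [rm_pdiff_congr_on (g := fun w => g (rm_tl d w) i j) (prd_dom_open H.met.opn) hb
    fun w hw => H.ess hw i j,
    prd_pdiff_tl_zero (φ := fun y => g y i j) (rm_da H.met.opn (H.met.smooth i j) hb), mul_zero]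

theorem PrdBlk.H0 (H : PrdBlk G g U) (hb : b ∈ prdDom U) : rm_H G b = 0 := by
  unfold rm_H
  rw [H.sff hb]
  simp

theorem PrdBlk.Jsq0 (H : PrdBlk G g U) (hb : b ∈ prdDom U) : rm_Jsq G b = 0 := by
  unfold rm_Jsq
  rw [H.sff hb]
  simp

theorem PrdLift.contDiffOn (hF : PrdLift F f a U) : ContDiffOn ℝ ∞ F (prdDom U) :=
  ((hF.smooth.comp (rm_tl d).contDiff.contDiffOn fun _ hb => hb).add
    (contDiffOn_const.mul (if_pr (0 : Fin (d + 1))).contDiff.contDiffOn)).congr hF.eq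

theorem PrdLift.pdiff0 (hF : PrdLift F f a U) (hU : IsOpen U) (hb : b ∈ prdDom U) :
    pdiff F 0 b = a := by
  rw [rm_pdiff_congr_on (g := fun w => f (rm_tl d w) + a * w 0) (prd_dom_open hU) hb hF.eq,
    rm_pdiff_add (f := fun w => f (rm_tl d w)) (g := fun w => a * w 0)
      ((rm_da hU hF.smooth hb).comp b (rm_tl d).differentiableAt)
      ((if_pr (0 : Fin (d + 1))).differentiableAt.const_mul a),
    prd_pdiff_tl_zero (rm_da hU hF.smooth hb), prd_pdiff_coord, zero_add]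

theorem PrdLift.fs_ev (hF : PrdLift F f a U) (hU : IsOpen U) (q : ℝ) {y : E d} (hy : y ∈ U) :
    rm_fs F q =ᶠ[𝓝 y] fun w => f w + a * q :=
  Filter.eventuallyEq_of_mem (hU.mem_nhds hy) fun w hw => by
    show F (rm_J q w) = _
    rw [hF.eq _ (prd_J_mem_dom hw q), rm_tl_J, rm_J_zero]

theorem PrdBlk.e_lift (H : PrdBlk G g U) (hF : PrdLift F f a U) (hb : b ∈ prdDom U) :
    rm_e G F b = a := by
  unfold rm_e
  rw [H.lps hb, hF.pdiff0 H.met.opn hb]
  simp

theorem PrdBlk.e_of_const (H : PrdBlk G g U) {r : ℝ} (hF : ∀ w ∈ prdDom U, F w = r)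
    (hb : b ∈ prdDom U) : rm_e G F b = 0 := by
  unfold rm_e
  rw [rm_pdiff_congr_on (g := fun _ => r) (prd_dom_open H.met.opn) hb hF, rm_pdiff_const, mul_zero]

theorem PrdBlk.ipS_lift (H : PrdBlk G g U) (hF : PrdLift F f a U) (hK : PrdLift K k c U)
    (hb : b ∈ prdDom U) : rm_ipS G F K b = gradIpC g f k (rm_tl d b) := by
  unfold rm_ipS
  rw [if_gradIpC_congr₂ (H.sl (b 0) hb) (hF.fs_ev H.met.opn (b 0) hb) (hK.fs_ev H.met.opn (b 0) hb)]
  unfold gradIpC
  simp only [prd_pdiff_add_const]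

theorem PrdBlk.lapS_lift (H : PrdBlk G g U) (hF : PrdLift F f a U) (hb : b ∈ prdDom U) :
    rm_lapS G F b = lapC g f (rm_tl d b) := by
  unfold rm_lapS
  rw [if_lapC_congr (H.sl_ev (b 0) hb) (hF.fs_ev H.met.opn (b 0) hb)]
  unfold lapC
  simp only [prd_pdiff_add_const]

theorem PrdBlk.lps_lift (H : PrdBlk G g U) : PrdLift (rm_lps G) (fun _ => 1) 0 U :=
  ⟨contDiffOn_const, fun b hb => by rw [H.lps hb]; simp⟩

theorem prd_gradIpC_const (g : rm_MF d) (r : ℝ) (k : E d → ℝ) (y : E d) :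
    gradIpC g (fun _ => r) k y = 0 := by
  unfold gradIpC
  simp [rm_pdiff_const]

/-- scalar curvature of a block metric. -/
theorem PrdBlk.scalar (H : PrdBlk G g U) (hb : b ∈ prdDom U) :
    scalarCoord G b = scalarCoord g (rm_tl d b) := by
  rw [rm_adm_scal H.rmMet H.orth hb, H.Jsq0 hb, H.H0 hb,
    H.e_of_const (r := 0) (fun w hw => H.H0 hw) hb, H.lapS_lift H.lps_lift hb, rm_lap_const]
  unfold rm_scalS
  rw [if_scalar_congr (H.sl_ev (b 0) hb)]
  simp

/-- inner products for a block metric. -/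
theorem PrdBlk.ip (H : PrdBlk G g U) (hF : PrdLift F f a U) (hK : PrdLift K k c U)
    (hb : b ∈ prdDom U) : gradIpC G F K b = gradIpC g f k (rm_tl d b) + a * c := by
  rw [rm_adm_ip H.rmMet H.orth hb hF.contDiffOn hK.contDiffOn, H.ipS_lift hF hK hb,
    H.e_lift hF hb, H.e_lift hK hb]

/-- the Laplacian of a block metric. -/
theorem PrdBlk.lap (H : PrdBlk G g U) (hF : PrdLift F f a U) (hb : b ∈ prdDom U) :
    lapC G F b = lapC g f (rm_tl d b) := by
  rw [rm_adm_lap H.rmMet H.orth hb hF.contDiffOn, H.lapS_lift hF hb,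
    H.e_of_const (r := a) (fun w hw => H.e_lift hF hw) hb, H.H0 hb, H.ipS_lift H.lps_lift hF hb,
    prd_gradIpC_const]
  simp

end block

theorem prd_blk_cite : True := by
  have := @prdDom.eq_1
  trivial

end Claimed.Agent.R314
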