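import Claimed.Agent.R314.Prod.Blk
import Claimed.Agent.R314.LocIso

/-!
# Row 314, package PROD: the Riemannian product `X × ℝ ⊆ E (N+1)`

`prdX X = rm_tl N ⁻¹' X` (the new coordinate is the coordinate `0`), `prdG g = g ∘ rm_tl ⊕ dq²`,
product parametrisations `prdPsi s ψ b = (b 0 + s, ψ (rm_tl d b))` on `prdDom U` (the shift `s` is used for the translations).
Results: `prd_param`, `prd_bil`, `prd_mfd`, `prd_met`, `prd_smooth_aux`, `prd_scal`, `prd_ip_aux`, `prd_lap_aux`, `prd_Dsc`, `prd_gradSq_coord`.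
(Adapted from the section `cylgeo` of `R315/Ct/ProdB.lean`.)  Owner: helper50.
-/

set_option autoImplicit false
set_option linter.unusedSectionVars false
open scoped ContDiff Topology
open Claims.C0499 Set Filter Claimed.Agent.R315

namespace Claimed.Agent.R314

variable {d N : ℕ} {X : Set (E N)} {g : Ten (E N)}

/-- `X × ℝ ⊆ E (N+1)`. -/
def prdX {N : ℕ} (X : Set (E N)) : Set (E (N + 1)) := rm_tl N ⁻¹' X

/-- the product metric `g ⊕ dq²`. -/
noncomputable def prdG {N : ℕ} (g : Ten (E N)) : Ten (E (N + 1)) :=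
  fun z => if_pullL (rm_tl N) g z + (if_pr (0 : Fin (N + 1))).smulRight (if_pr (0 : Fin (N + 1)))

/-- the product parametrisation, shifted by `s`. -/
noncomputable def prdPsi {d N : ℕ} (s : ℝ) (ψ : E d → E N) : E (d + 1) → E (N + 1) :=
  fun b => rm_J (b 0 + s) (ψ (rm_tl d b))

theorem prd_geo_cite : True := by
  have := @prdX.eq_1
  have := @prdG.eq_1
  have := @prdPsi.eq_1
  trivial

theorem prdG_apply (g : Ten (E N)) (z a b : E (N + 1)) :
    prdG g z a b = g (rm_tl N z) (rm_tl N a) (rm_tl N b) + a 0 * b 0 := rfl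

theorem prd_mem_iff {z : E (N + 1)} : z ∈ prdX X ↔ rm_tl N z ∈ X := Iff.rfl

theorem prd_J_mem {x : E N} (hx : x ∈ X) (q : ℝ) : rm_J q x ∈ prdX X := by
  show rm_tl N (rm_J q x) ∈ X
  rw [rm_tl_J]
  exact hx

theorem prd_J_inj {q q' : ℝ} {y y' : E N} (h : rm_J q y = rm_J q' y') : q = q' ∧ y = y' := by
  constructor
  · have := congrArg (fun z : E (N + 1) => z 0) h
    simpa only [rm_J_zero] using this
  · have := congrArg (rm_tl N) h
    simpa only [rm_tl_J] using this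

theorem prd_J_continuous : Continuous fun p : ℝ × E N => rm_J p.1 p.2 := by
  unfold rm_J
  exact (continuous_fst.smul continuous_const).add ((rm_in N).continuous.comp continuous_snd)

section param

variable {ψ : E d → E N} {U : Set (E d)}

theorem prd_psi_J (s : ℝ) (ψ : E d → E N) (q : ℝ) (u : E d) :
    prdPsi s ψ (rm_J q u) = rm_J (q + s) (ψ u) := by
  unfold prdPsi
  rw [rm_tl_J, rm_J_zero]

theorem prd_tl_psi (s : ℝ) (ψ : E d → E N) (b : E (d + 1)) :
    rm_tl N (prdPsi s ψ b) = ψ (rm_tl d b) := rm_tl_J _ _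

theorem prd_psi_zero (s : ℝ) (ψ : E d → E N) (b : E (d + 1)) : prdPsi s ψ b 0 = b 0 + s :=
  rm_J_zero _ _

theorem prd_psi_hasFDerivAt (hp : IsParam X ψ U) (s : ℝ) {b : E (d + 1)} (hb : b ∈ prdDom U) :
    HasFDerivAt (prdPsi s ψ)
      ((if_pr (0 : Fin (d + 1))).smulRight (eb (0 : Fin (N + 1))) +
        (rm_in N).comp ((fderiv ℝ ψ (rm_tl d b)).comp (rm_tl d))) b := by
  unfold prdPsi rm_J
  exact (((if_pr (0 : Fin (d + 1))).hasFDerivAt.add_const s).smul_const _).add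
    ((rm_in N).hasFDerivAt.comp b
      ((if_differentiableAt hp hb).hasFDerivAt.comp b (rm_tl d).hasFDerivAt))

theorem prd_psi_fderiv (hp : IsParam X ψ U) (s : ℝ) {b : E (d + 1)} (hb : b ∈ prdDom U)
    (v : E (d + 1)) :
    fderiv ℝ (prdPsi s ψ) b v = rm_J (v 0) (fderiv ℝ ψ (rm_tl d b) (rm_tl d v)) := by
  rw [(prd_psi_hasFDerivAt hp s hb).fderiv]
  rfl

theorem prd_psi_smooth (hp : IsParam X ψ U) (s : ℝ) : ContDiffOn ℝ ∞ (prdPsi s ψ) (prdDom U) := by
  unfold prdPsi rm_J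
  exact (((if_pr (0 : Fin (d + 1))).contDiff.contDiffOn.add contDiffOn_const).smul
    contDiffOn_const).add ((rm_in N).contDiff.comp_contDiffOn
      ((if_smooth hp).comp (rm_tl d).contDiff.contDiffOn fun _ hb => hb))

/-- **key lemma**: the product parametrisation. -/
theorem prd_param (hp : IsParam X ψ U) (s : ℝ) : IsParam (prdX X) (prdPsi s ψ) (prdDom U) := by
  obtain ⟨O, hO, hOe⟩ := if_image hp
  refine pk_param_mk (O := rm_tl N ⁻¹' O)
    (g := fun z : E (N + 1) => rm_J (z 0 - s) (Function.invFunOn ψ U (rm_tl N z)))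
    (prd_dom_open (if_open hp)) (prd_psi_smooth hp s) ?_ (hO.preimage (rm_tl N).continuous) ?_ ?_ ?_
  · intro b hb v w hvw
    rw [prd_psi_fderiv hp s hb, prd_psi_fderiv hp s hb] at hvw
    obtain ⟨h1, h2⟩ := prd_J_inj hvw
    rw [← rm_J_tl v, ← rm_J_tl w, h1, if_imm hp hb h2]
  · ext z
    constructor
    · rintro ⟨b, hb, rfl⟩
      have : ψ (rm_tl d b) ∈ X ∩ O := hOe ▸ Set.mem_image_of_mem ψ hb
      show rm_tl N (prdPsi s ψ b) ∈ X ∧ rm_tl N (prdPsi s ψ b) ∈ O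
      rw [prd_tl_psi]
      exact this
    · rintro ⟨h1, h2⟩
      have : rm_tl N z ∈ ψ '' U := hOe ▸ (⟨h1, h2⟩ : rm_tl N z ∈ X ∩ O)
      obtain ⟨u, hu, hue⟩ := this
      refine ⟨rm_J (z 0 - s) u, prd_J_mem_dom hu _, ?_⟩
      rw [prd_psi_J, hue, sub_add_cancel, rm_J_tl]
  · have h1 : ContinuousOn (fun z : E (N + 1) => Function.invFunOn ψ U (rm_tl N z))
        (prdPsi s ψ '' prdDom U) := by
      refine (if_contInv hp).comp (rm_tl N).continuous.continuousOn ?_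
      rintro _ ⟨b, hb, rfl⟩
      show rm_tl N (prdPsi s ψ b) ∈ ψ '' U
      rw [prd_tl_psi]
      exact Set.mem_image_of_mem ψ hb
    unfold rm_J
    exact ((((if_pr (0 : Fin (N + 1))).continuous.continuousOn).sub continuousOn_const).smul
      continuousOn_const).add ((rm_in d).continuous.comp_continuousOn h1)
  · intro b hb
    show rm_J (prdPsi s ψ b 0 - s) (Function.invFunOn ψ U (rm_tl N (prdPsi s ψ b))) = b
    rw [prd_psi_zero, prd_tl_psi, if_leftInv hp hb, add_sub_cancel_right, rm_J_tl]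

/-- the product parametrisations cover the product. -/
theorem prd_cover (hM : IsMfd d X) (s : ℝ) {z : E (N + 1)} (hz : z ∈ prdX X) :
    ∃ (ψ : E d → E N) (U : Set (E d)) (u : E d), IsParam X ψ U ∧ u ∈ U ∧ ψ u = rm_tl N z ∧
      rm_J (z 0 - s) u ∈ prdDom U ∧ prdPsi s ψ (rm_J (z 0 - s) u) = z := by
  obtain ⟨ψ, U, hp, u, hu, hue⟩ := hM _ hz
  exact ⟨ψ, U, u, hp, hu, hue, prd_J_mem_dom hu _, by rw [prd_psi_J, hue, sub_add_cancel, rm_J_tl]⟩

/-- **the product metric in the product parametrisation**. -/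
theorem prd_bil (g : Ten (E N)) (hp : IsParam X ψ U) (s : ℝ) {b : E (d + 1)} (hb : b ∈ prdDom U)
    (v w : E (d + 1)) :
    if_bil (cm (prdG g) (prdPsi s ψ) b) v w =
      if_bil (cm g ψ (rm_tl d b)) (rm_tl d v) (rm_tl d w) + v 0 * w 0 := by
  rw [if_cm_bil, if_cm_bil, prdG_apply, prd_tl_psi, prd_psi_fderiv hp s hb, prd_psi_fderiv hp s hb,
    rm_tl_J, rm_tl_J, rm_J_zero, rm_J_zero]

theorem prd_rmMet (hg : IsMetricOn d X g) (hp : IsParam X ψ U) : rm_Met (cm g ψ) U :=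
  ⟨if_open hp, (hg ψ U hp).1, (hg ψ U hp).2⟩

theorem prd_blk (hg : IsMetricOn d X g) (hp : IsParam X ψ U) (s : ℝ) :
    PrdBlk (cm (prdG g) (prdPsi s ψ)) (cm g ψ) U :=
  ⟨prd_rmMet hg hp, fun _ hb v w => prd_bil g hp s hb v w⟩

theorem prd_lift (hp : IsParam X ψ U) {f : E N → ℝ} {F : E (N + 1) → ℝ} {a : ℝ}
    (hf : SmoothAlong d X f) (hF : ∀ z ∈ prdX X, F z = f (rm_tl N z) + a * z 0) :
    PrdLift (F ∘ prdPsi 0 ψ) (f ∘ ψ) a U :=
  ⟨hf ψ U hp, fun b hb => by
    show F (prdPsi 0 ψ b) = f (ψ (rm_tl d b)) + a * b 0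
    rw [hF _ (if_mem (prd_param hp 0) hb), prd_tl_psi, prd_psi_zero, add_zero]⟩

end param

/-! ### the geometry of the product -/

theorem prd_mfd (hM : IsMfd d X) : IsMfd (d + 1) (prdX X) := fun _ hz => by
  obtain ⟨ψ, U, u, hp, -, -, hb, he⟩ := prd_cover hM 0 hz
  exact ⟨prdPsi 0 ψ, prdDom U, prd_param hp 0, _, hb, he⟩

theorem prd_smooth_aux (hM : IsMfd d X) {f : E N → ℝ} {F : E (N + 1) → ℝ} {a : ℝ}
    (hf : SmoothAlong d X f) (hF : ∀ z ∈ prdX X, F z = f (rm_tl N z) + a * z 0) :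
    SmoothAlong (d + 1) (prdX X) F :=
  if_smoothAlong_of_atlas fun _ hz => by
    obtain ⟨ψ, U, u, hp, -, -, hb, he⟩ := prd_cover hM 0 hz
    exact ⟨prdPsi 0 ψ, prdDom U, prd_param hp 0, ⟨_, hb, he⟩, (prd_lift hp hf hF).contDiffOn⟩

theorem prd_met (hM : IsMfd d X) (hg : IsMetricOn d X g) :
    IsMetricOn (d + 1) (prdX X) (prdG g) :=
  if_isMetricOn_of_atlas fun _ hz => by
    obtain ⟨ψ, U, u, hp, -, -, hb, he⟩ := prd_cover hM 0 hz
    have H := (prd_blk hg hp 0).rmMet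
    exact ⟨prdPsi 0 ψ, prdDom U, prd_param hp 0, ⟨_, hb, he⟩, H.smooth, H.pos⟩

/-- scalar curvature of the product. -/
theorem prd_scal (hM : IsMfd d X) (hg : IsMetricOn d X g) {z : E (N + 1)} (hz : z ∈ prdX X) :
    scal (d + 1) (prdX X) (prdG g) z = scal d X g (rm_tl N z) := by
  obtain ⟨ψ, U, u, hp, hu, hue, hb, he⟩ := prd_cover hM 0 hz
  have h1 := if_scal_eq (prd_met hM hg) (prd_param hp 0) hb
  rw [he] at h1
  rw [h1, (prd_blk hg hp 0).scalar hb, rm_tl_J, ← if_scal_eq hg hp hu, hue]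

/-- inner products on the product. -/
theorem prd_ip_aux (hM : IsMfd d X) (hg : IsMetricOn d X g) {f k : E N → ℝ}
    {F K : E (N + 1) → ℝ} {a c : ℝ} (hf : SmoothAlong d X f) (hk : SmoothAlong d X k)
    (hF : ∀ z ∈ prdX X, F z = f (rm_tl N z) + a * z 0)
    (hK : ∀ z ∈ prdX X, K z = k (rm_tl N z) + c * z 0) {z : E (N + 1)} (hz : z ∈ prdX X) :
    gradIp (d + 1) (prdX X) (prdG g) F K z = gradIp d X g f k (rm_tl N z) + a * c := by
  obtain ⟨ψ, U, u, hp, hu, hue, hb, he⟩ := prd_cover hM 0 hz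
  have h1 := if_gradIp_eq (prd_met hM hg) (prd_smooth_aux hM hf hF) (prd_smooth_aux hM hk hK)
    (prd_param hp 0) hb
  rw [he] at h1
  rw [h1, (prd_blk hg hp 0).ip (prd_lift hp hf hF) (prd_lift hp hk hK) hb,
    rm_tl_J, ← if_gradIp_eq hg hf hk hp hu, hue]

/-- the Laplacian on the product. -/
theorem prd_lap_aux (hM : IsMfd d X) (hg : IsMetricOn d X g) {f : E N → ℝ}
    {F : E (N + 1) → ℝ} {a : ℝ} (hf : SmoothAlong d X f)
    (hF : ∀ z ∈ prdX X, F z = f (rm_tl N z) + a * z 0) {z : E (N + 1)} (hz : z ∈ prdX X) :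
    lap (d + 1) (prdX X) (prdG g) F z = lap d X g f (rm_tl N z) := by
  obtain ⟨ψ, U, u, hp, hu, hue, hb, he⟩ := prd_cover hM 0 hz
  have h1 := if_lap_eq (prd_met hM hg) (prd_smooth_aux hM hf hF) (prd_param hp 0) hb
  rw [he] at h1
  rw [h1, (prd_blk hg hp 0).lap (prd_lift hp hf hF) hb, rm_tl_J, ← if_lap_eq hg hf hp hu, hue]

/-- pulled back functions are smooth along the product. -/
theorem prd_smooth (hM : IsMfd d X) {f : E N → ℝ} (hf : SmoothAlong d X f) :
    SmoothAlong (d + 1) (prdX X) (f ∘ rm_tl N) :=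
  prd_smooth_aux hM (a := 0) hf fun _ _ => by simp

/-- the drift scalar curvature of the product. -/
theorem prd_Dsc (hM : IsMfd d X) (hg : IsMetricOn d X g) {t : E N → ℝ} (ht : SmoothAlong d X t)
    {z : E (N + 1)} (hz : z ∈ prdX X) :
    Dsc (d + 1) (prdX X) (prdG g) (t ∘ rm_tl N) z = Dsc d X g t (rm_tl N z) := by
  unfold Dsc
  rw [prd_scal hM hg hz, prd_lap_aux hM hg (a := 0) ht (fun _ _ => by simp) hz,
    if_gradSq_eq_gradIp, if_gradSq_eq_gradIp,
    prd_ip_aux hM hg (a := 0) (c := 0) ht ht (fun _ _ => by simp) (fun _ _ => by simp) hz]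
  simp

/-- the coordinate `q` is smooth. -/
theorem prd_smooth_coord (hM : IsMfd d X) :
    SmoothAlong (d + 1) (prdX X) (fun z : E (N + 1) => z 0) :=
  prd_smooth_aux hM (f := fun _ => 0) (a := 1) (if_smoothAlong_const 0) fun _ _ => by simp

/-- the coordinate `q` has gradient of length one. -/
theorem prd_gradSq_coord (hM : IsMfd d X) (hg : IsMetricOn d X g) {z : E (N + 1)}
    (hz : z ∈ prdX X) : gradSq (d + 1) (prdX X) (prdG g) (fun z : E (N + 1) => z 0) z = 1 := by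
  rw [if_gradSq_eq_gradIp, prd_ip_aux hM hg (f := fun _ => 0) (k := fun _ => 0) (a := 1) (c := 1)
    (if_smoothAlong_const 0) (if_smoothAlong_const 0) (fun _ _ => by simp) (fun _ _ => by simp) hz]
  obtain ⟨ψ, U, hp, u, hu, hue⟩ := hM _ hz
  rw [← hue, if_gradIp_eq hg (if_smoothAlong_const 0) (if_smoothAlong_const 0) hp hu]
  have : ((fun _ => 0 : E N → ℝ) ∘ ψ) = fun _ => (0 : ℝ) := rfl
  rw [this, prd_gradIpC_const]
  simp

end Claimed.Agent.R314
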