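import Claimed.Agent.R314.Prod.Geo

/-!
# Row 314, package PROD: topology and completeness of the product `X × ℝ`

`prd_closed`, `prd_conn`, `prd_fill` (tail component: `Fill k X`, coordinate `0`: Tietze), `prd_rdist_tl_le`, `prd_rdist_coord_le`
(the two projections are `1`-Lipschitz), `prd_proper`.
Owner: helper50.
-/

set_option autoImplicit false
set_option linter.unusedSectionVars false
open scoped ContDiff Topology
open Claims.C0499 Set Filter Claimed.Agent.R315

namespace Claimed.Agent.R314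

variable {d N : ℕ} {X : Set (E N)} {g : Ten (E N)}

theorem prd_closed (h : IsClosed X) : IsClosed (prdX X) := h.preimage (rm_tl N).continuous

theorem prd_eq_image (X : Set (E N)) :
    prdX X = (fun p : ℝ × E N => rm_J p.1 p.2) '' (univ ×ˢ X) := by
  ext z
  constructor
  · intro hz
    exact ⟨(z 0, rm_tl N z), ⟨mem_univ _, hz⟩, rm_J_tl z⟩
  · rintro ⟨⟨q, x⟩, ⟨-, hx⟩, rfl⟩
    exact prd_J_mem hx q

theorem prd_conn (h : IsConnected X) : IsConnected (prdX X) := by
  rw [prd_eq_image]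
  exact (isConnected_univ.prod h).image _ prd_J_continuous.continuousOn

theorem isClosed_cbd (k : ℕ) : IsClosed (cbd k) := by
  have : cbd k = cube k ∩ ⋃ i : Fin k, ({x : Fin k → ℝ | x i = 0} ∪ {x | x i = 1}) := by
    ext x
    simp [cbd]
  rw [this]
  refine isClosed_Icc.inter (isClosed_iUnion_of_finite fun i => ?_)
  exact (isClosed_eq (continuous_apply i) continuous_const).union
    (isClosed_eq (continuous_apply i) continuous_const)

theorem prd_fill {k : ℕ} (h : Fill k X) : Fill k (prdX X) := by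
  intro f hf hm
  obtain ⟨F1, hF1, hF1m, hF1e⟩ := h (rm_tl N ∘ f) ((rm_tl N).continuous.comp_continuousOn hf)
    (fun x hx => hm hx)
  have hf0 : ContinuousOn (fun x => f x 0) (cbd k) :=
    (if_pr (0 : Fin (N + 1))).continuous.comp_continuousOn hf
  obtain ⟨F0, hF0⟩ := ContinuousMap.exists_restrict_eq (isClosed_cbd k)
    (⟨(cbd k).domRestrict fun x => f x 0, continuousOn_iff_continuous_domRestrict.1 hf0⟩ : C(cbd k, ℝ))
  have hF0e : ∀ x ∈ cbd k, F0 x = f x 0 := fun x hx =>
    congrArg (fun G : C(cbd k, ℝ) => G ⟨x, hx⟩) hF0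
  refine ⟨fun x => rm_J (F0 x) (F1 x), ?_, fun x hx => prd_J_mem (hF1m hx) _, fun x hx => ?_⟩
  · exact prd_J_continuous.comp_continuousOn (F0.continuous.continuousOn.prodMk hF1)
  · show rm_J (F0 x) (F1 x) = f x
    rw [hF0e x hx, hF1e hx]
    exact rm_J_tl (f x)

/-! ### the distance of the product -/

theorem prd_isTen (hM : IsMfd d X) (hg : IsMetricOn d X g) : IsTenOn (d + 1) (prdX X) (prdG g) :=
  (if_isMetricOn_iff.1 (prd_met hM hg)).1

theorem prd_adm_tl {c : ℝ → E (N + 1)} (hc : if_Adm (prdX X) c) : if_Adm X (rm_tl N ∘ c) :=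
  ⟨(rm_tl N).contDiff.comp hc.1, fun t ht => hc.2 t ht⟩

theorem prd_speed_tl_le (g : Ten (E N)) {c : ℝ → E (N + 1)} {t : ℝ} (hc : DifferentiableAt ℝ c t) :
    if_speed g (rm_tl N ∘ c) t ≤ if_speed (prdG g) c t := by
  rw [if_speed_map (rm_tl N) g hc]
  unfold if_speed
  refine Real.sqrt_le_sqrt ?_
  rw [prdG_apply, if_pullL_apply]
  have := mul_self_nonneg (deriv c t 0)
  linarith

/-- the projection to `X` is `1`-Lipschitz. -/
theorem prd_rdist_tl_le (hM : IsMfd d X) (hg : IsMetricOn d X g) {z z' : E (N + 1)}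
    (hj : if_Join (prdX X) z z') :
    rdist X g (rm_tl N z) (rm_tl N z') ≤ rdist (prdX X) (prdG g) z z' := by
  have hm0 : (0 : ℝ) ∈ Icc (0 : ℝ) 1 := ⟨le_rfl, zero_le_one⟩
  have hm1 : (1 : ℝ) ∈ Icc (0 : ℝ) 1 := ⟨zero_le_one, le_rfl⟩
  refine if_le_rdist hj fun c hc hx hy => ?_
  refine (if_rdist_le' (prd_adm_tl hc) g (by rw [Function.comp_apply, hx])
    (by rw [Function.comp_apply, hy])).trans ?_
  exact intervalIntegral.integral_mono_on zero_le_one
    (if_speed_intervalIntegrable hM (if_isMetricOn_iff.1 hg).1 (prd_adm_tl hc) hm0 hm1)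
    (if_speed_intervalIntegrable (prd_mfd hM) (prd_isTen hM hg) hc hm0 hm1)
    fun t _ => prd_speed_tl_le g (hc.1.differentiable (by simp) t)

/-- the projection to `ℝ` is `1`-Lipschitz. -/
theorem prd_rdist_coord_le (hM : IsMfd d X) (hg : IsMetricOn d X g) {z z' : E (N + 1)}
    (hj : if_Join (prdX X) z z') : |z' 0 - z 0| ≤ rdist (prdX X) (prdG g) z z' := by
  have := if_lip (prd_mfd hM) (prd_met hM hg) (prd_smooth_coord hM) zero_le_one
    (fun x hx => by rw [prd_gradSq_coord hM hg hx]; norm_num) hj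
  simpa using this

theorem prd_proper (hM : IsMfd d X) (hg : IsMetricOn d X g) (hcl : IsClosed X)
    (hc : IsConnected X) (hp : IsProperOn X g) : IsProperOn (prdX X) (prdG g) := by
  intro z hz R
  have hK : IsCompact ((fun p : ℝ × E N => rm_J p.1 p.2) ''
      (Icc (z 0 - R) (z 0 + R) ×ˢ {x | x ∈ X ∧ rdist X g (rm_tl N z) x ≤ R})) :=
    (isCompact_Icc.prod (hp _ hz R)).image prd_J_continuous
  have hcont : ContinuousOn (rdist (prdX X) (prdG g) z) (prdX X) :=
    (if_isRd (prd_mfd hM) (prd_conn hc) (prd_met hM hg)).cont z hz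
  have hcl' : IsClosed {y | y ∈ prdX X ∧ rdist (prdX X) (prdG g) z y ≤ R} :=
    hcont.preimage_isClosed_of_isClosed (prd_closed hcl) isClosed_Iic
  refine hK.of_isClosed_subset hcl' ?_
  rintro y ⟨hy, hyR⟩
  have hj := if_join_of_connected (prd_mfd hM) (prd_conn hc).isPreconnected hz hy
  have h1 := (prd_rdist_tl_le hM hg hj).trans hyR
  have h2 := abs_le.1 ((prd_rdist_coord_le hM hg hj).trans hyR)
  exact ⟨(y 0, rm_tl N y), ⟨⟨by linarith [h2.1], by linarith [h2.2]⟩, hy, h1⟩, rm_J_tl y⟩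

end Claimed.Agent.R314
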